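import Vale.Agent.P254.H657.Iface

/-!
P254 / P248: block E6 (helper934): reduction of the equality case to the normalised position
(mean `0`, covariance `1`) by an affine change of variables.
-/

open MeasureTheory Set Matrix Filter Topology
open scoped MatrixOrder

namespace Vale.Agent.P254.Eq934

open R304 Eq657

variable {n : ℕ}

/-- change of variables for an invertible affine map -/
lemma int_affine {G : Matrix (Fin n) (Fin n) ℝ} (hG : G.det ≠ 0) (u : Fin n → ℝ)
    (g : (Fin n → ℝ) → ℝ) :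
    ∫ y, g y = |G.det| * ∫ x, g (G *ᵥ x + u) := by
  have hd : ∀ x ∈ (univ : Set (Fin n → ℝ)), HasFDerivWithinAt (fun v => G *ᵥ v + u)
      (LinearMap.toContinuousLinearMap (Matrix.toLin' G)) univ x := by
    intro x _
    have h := (LinearMap.toContinuousLinearMap (Matrix.toLin' G)).hasFDerivAt (x := x)
    exact (h.add_const u).hasFDerivWithinAt
  have hu : IsUnit G.det := hG.isUnit
  have hinj : InjOn (fun v => G *ᵥ v + u) univ := by
    intro x _ y _ hxy
    have h1 : G *ᵥ x = G *ᵥ y := add_right_cancel hxy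
    exact Matrix.mulVec_injective_of_isUnit ((Matrix.isUnit_iff_isUnit_det _).2 hu) h1
  have h := integral_image_eq_integral_abs_det_fderiv_smul volume MeasurableSet.univ hd hinj g
  have himg : (fun v => G *ᵥ v + u) '' univ = univ := by
    rw [image_univ, range_eq_univ]
    intro y
    refine ⟨G⁻¹ *ᵥ (y - u), ?_⟩
    simp only [mulVec_mulVec, Matrix.mul_nonsing_inv _ hu, one_mulVec, sub_add_cancel]
  rw [himg, Measure.restrict_univ] at h
  rw [h]
  simp only [LinearMap.det_toContinuousLinearMap, LinearMap.det_toLin', smul_eq_mul]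
  rw [integral_const_mul]

section general

variable {f f' : (Fin n → ℝ) → ℝ} {M a κ : ℝ} {G : Matrix (Fin n) (Fin n) ℝ} {u : Fin n → ℝ}

/-- expectations after the change of variables -/
lemma Ef_affine (hG : G.det ≠ 0) (hκ : κ ≠ 0) (hff : ∀ x, f' (G *ᵥ x + u) = κ * f x)
    (ψ : (Fin n → ℝ) → ℝ) : Ef f' ψ = Ef f (fun x => ψ (G *ᵥ x + u)) := by
  have h1 : Ef f' ψ = Ef (fun x => κ * f x) (fun x => ψ (G *ᵥ x + u)) := by
    unfold Ef
    rw [int_affine hG u (fun y => ψ y * f' y), int_affine hG u f',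
      mul_div_mul_left _ _ (abs_pos.2 hG).ne']
    simp only [hff]
  rw [h1, Ef_smul hκ]

lemma Ef_add {p q : (Fin n → ℝ) → ℝ}
    (hp : Integrable fun x => p x * f x) (hq : Integrable fun x => q x * f x) :
    Ef f (fun x => p x + q x) = Ef f p + Ef f q := by
  unfold Ef
  rw [← add_div, ← integral_add hp hq]
  congr 1
  refine integral_congr_ae (ae_of_all _ fun x => ?_)
  simp only
  ring

lemma Ef_const_mul (s : ℝ) (p : (Fin n → ℝ) → ℝ) :
    Ef f (fun x => s * p x) = s * Ef f p := by
  unfold Ef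
  rw [← mul_div_assoc, ← integral_const_mul]
  congr 1
  refine integral_congr_ae (ae_of_all _ fun x => ?_)
  simp only
  ring

lemma Ef_sum {ι : Type*} (s : Finset ι) {p : ι → (Fin n → ℝ) → ℝ}
    (hp : ∀ i ∈ s, Integrable fun x => p i x * f x) :
    Ef f (fun x => ∑ i ∈ s, p i x) = ∑ i ∈ s, Ef f (p i) := by
  unfold Ef
  rw [← Finset.sum_div, ← integral_finsetSum s hp]
  congr 1
  refine integral_congr_ae (ae_of_all _ fun x => ?_)
  simp only [Finset.sum_mul]

lemma Ef_const (hf : (∫ x, f x) ≠ 0) (s : ℝ) : Ef f (fun _ => s) = s := by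
  unfold Ef
  rw [integral_const_mul, mul_div_assoc, div_self hf, mul_one]

lemma Ef_coord (h : Good f M a) (i : Fin n) :
    Ef f (fun x => (G *ᵥ x + u) i) = ∑ k, G i k * Ef f (fun x => x k) + u i := by
  have e : (fun x : Fin n → ℝ => (G *ᵥ x + u) i) = fun x => (∑ k, G i k * x k) + u i := by
    ext x
    simp [mulVec, dotProduct]
  have hk : ∀ k, Integrable fun x : Fin n → ℝ => (G i k * x k) * f x := fun k => by
    have := (h.int (pg_coord k)).const_mul (G i k)
    refine this.congr (ae_of_all _ fun x => ?_)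
    simp only
    ring
  rw [e, Ef_add (by
    have := integrable_finsetSum Finset.univ fun k _ => hk k
    refine this.congr (ae_of_all _ fun x => ?_)
    simp only [Finset.sum_mul]) (h.int1.const_mul _), Ef_sum _ fun k _ => hk k,
    Ef_const h.mass_pos.ne']
  congr 1
  exact Finset.sum_congr rfl fun k _ => Ef_const_mul _ _

lemma Ef_coord2 (h : Good f M a) (i j : Fin n) :
    Ef f (fun x => (G *ᵥ x + u) i * (G *ᵥ x + u) j) =
      ∑ k, ∑ l, G i k * G j l * Ef f (fun x => x k * x l)
        + (∑ k, G i k * Ef f (fun x => x k)) * u j + u i * (∑ k, G j k * Ef f (fun x => x k))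
        + u i * u j := by
  have e : (fun x : Fin n → ℝ => (G *ᵥ x + u) i * (G *ᵥ x + u) j) =
      fun x => (((∑ k, ∑ l, G i k * G j l * (x k * x l)) + (∑ k, (u j * G i k) * x k))
        + (∑ k, (u i * G j k) * x k)) + u i * u j := by
    ext x
    simp only [mulVec, dotProduct, Pi.add_apply]
    have h1 : (∑ k, ∑ l, G i k * G j l * (x k * x l)) =
        (∑ k, G i k * x k) * (∑ l, G j l * x l) := by
      rw [Finset.sum_mul_sum]
      exact Finset.sum_congr rfl fun k _ => Finset.sum_congr rfl fun l _ => by ring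
    have h2 : (∑ k, (u j * G i k) * x k) = (∑ k, G i k * x k) * u j := by
      rw [Finset.sum_mul]
      exact Finset.sum_congr rfl fun k _ => by ring
    have h3 : (∑ k, (u i * G j k) * x k) = u i * (∑ k, G j k * x k) := by
      rw [Finset.mul_sum]
      exact Finset.sum_congr rfl fun k _ => by ring
    rw [h1, h2, h3]
    ring
  have hk : ∀ (s : ℝ) k, Integrable fun x : Fin n → ℝ => (s * x k) * f x := fun s k => by
    have := (h.int (pg_coord k)).const_mul s
    refine this.congr (ae_of_all _ fun x => ?_)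
    simp only
    ring
  have hkl : ∀ (s : ℝ) k l, Integrable fun x : Fin n → ℝ => (s * (x k * x l)) * f x :=
    fun s k l => by
    have := (h.int (pg_coord2 k l)).const_mul s
    refine this.congr (ae_of_all _ fun x => ?_)
    simp only
    ring
  have hsk : ∀ s : Fin n → ℝ, Integrable fun x : Fin n → ℝ => (∑ k, s k * x k) * f x := fun s => by
    have := integrable_finsetSum Finset.univ fun k _ => hk (s k) k
    refine this.congr (ae_of_all _ fun x => ?_)
    simp only [Finset.sum_mul]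
  have hskl1 : ∀ k, Integrable fun x : Fin n → ℝ =>
      (∑ l, G i k * G j l * (x k * x l)) * f x := fun k => by
    have := integrable_finsetSum Finset.univ fun l _ => hkl (G i k * G j l) k l
    refine this.congr (ae_of_all _ fun x => ?_)
    simp only [Finset.sum_mul]
  have hskl : Integrable fun x : Fin n → ℝ =>
      (∑ k, ∑ l, G i k * G j l * (x k * x l)) * f x := by
    have := integrable_finsetSum Finset.univ fun k _ => hskl1 k
    refine this.congr (ae_of_all _ fun x => ?_)
    simp only [Finset.sum_mul]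
  have hadd : ∀ {p q : (Fin n → ℝ) → ℝ}, Integrable (fun x => p x * f x) →
      Integrable (fun x => q x * f x) → Integrable (fun x => (p x + q x) * f x) := by
    intro p q hp hq
    refine (hp.add hq).congr (ae_of_all _ fun x => ?_)
    simp only [Pi.add_apply]
    ring
  rw [e, Ef_add (hadd (hadd hskl (hsk _)) (hsk _)) (h.int1.const_mul _),
    Ef_add (hadd hskl (hsk _)) (hsk _), Ef_add hskl (hsk _),
    Ef_const h.mass_pos.ne', Ef_sum _ fun k _ => hskl1 k, Ef_sum _ fun k _ => hk _ k,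
    Ef_sum _ fun k _ => hk _ k]
  congr 1
  congr 1
  · congr 1
    · refine Finset.sum_congr rfl fun k _ => ?_
      rw [Ef_sum _ fun l _ => hkl _ k l]
      exact Finset.sum_congr rfl fun l _ => Ef_const_mul _ _
    · rw [Finset.sum_mul]
      refine Finset.sum_congr rfl fun k _ => ?_
      rw [Ef_const_mul]
      ring
  · rw [Finset.mul_sum]
    refine Finset.sum_congr rfl fun k _ => ?_
    rw [Ef_const_mul]
    ring

/-- covariance after the change of variables -/
lemma covF_affine (h : Good f M a) (hG : G.det ≠ 0) (hκ : κ ≠ 0)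
    (hff : ∀ x, f' (G *ᵥ x + u) = κ * f x) : covF f' = G * covF f * Gᵀ := by
  ext i j
  have e1 : covF f' i j = Ef f' (fun x => x i * x j) - Ef f' (fun x => x i) * Ef f' (fun x => x j) :=
    rfl
  rw [e1, Ef_affine hG hκ hff, Ef_affine hG hκ hff, Ef_affine hG hκ hff, Ef_coord2 h,
    Ef_coord h, Ef_coord h, Matrix.mul_apply]
  have e2 : ∀ l, (G * covF f) i l * Gᵀ l j =
      ∑ k, (G i k * G j l * Ef f (fun x => x k * x l)
        - (G i k * Ef f (fun x => x k)) * (G j l * Ef f (fun x => x l))) := by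
    intro l
    rw [Matrix.mul_apply, Finset.sum_mul]
    refine Finset.sum_congr rfl fun k _ => ?_
    simp only [covF, of_apply, transpose_apply]
    ring
  rw [Finset.sum_congr rfl fun l _ => e2 l]
  simp only [Finset.sum_sub_distrib]
  rw [Finset.sum_comm]
  have e3 : ∑ l, ∑ k, G i k * Ef f (fun x => x k) * (G j l * Ef f (fun x => x l)) =
      (∑ k, G i k * Ef f (fun x => x k)) * (∑ l, G j l * Ef f (fun x => x l)) := by
    rw [Finset.sum_mul_sum, Finset.sum_comm]
  rw [e3]
  ring

/-- entropy after the change of variables -/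
lemma entF_affine (hG : G.det ≠ 0) (hκ : 0 < κ)
    (hff : ∀ x, f' (G *ᵥ x + u) = κ * f x) (hf : Integrable f)
    (hfl : Integrable fun x => f x * Real.log (f x)) (hZ : (∫ x, f x) ≠ 0) :
    entF f' = Real.log |G.det| + entF f := by
  have h0 : |G.det| ≠ 0 := (abs_pos.2 hG).ne'
  rw [← entF_smul hκ hf hfl hZ]
  unfold entF
  rw [int_affine hG u f', int_affine hG u (fun y => f' y * Real.log (f' y)),
    mul_div_mul_left _ _ h0]
  simp only [hff]
  rw [Real.log_mul h0 (by rw [integral_const_mul]; exact mul_ne_zero hκ.ne' hZ)]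
  ring

/-- `D` is invariant under affine changes of variables and scaling of the density -/
lemma DD_affine (h : Good f M a) (hM : 0 ≤ M) (hG : G.det ≠ 0) (hκ : 0 < κ)
    (hff : ∀ x, f' (G *ᵥ x + u) = κ * f x) : DD f' = DD f := by
  unfold DD
  rw [entF_affine hG hκ hff h.int1 (ent_integrable a M h.ha hM h.meas h.nn h.le) h.mass_pos.ne',
    covF_affine h hG hκ.ne' hff, det_mul, det_mul, det_transpose]
  have e : G.det * (covF f).det * G.det = |G.det| ^ 2 * (covF f).det := by
    rw [sq_abs]; ring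
  rw [e, Real.log_mul (by positivity) h.det_pos.ne', Real.log_pow]
  push_cast
  ring

end general

/-- a matrix `G` with `G S Gᵀ = 1` -/
lemma exists_whiten {S : Matrix (Fin n) (Fin n) ℝ} (hS : S.PosDef) :
    ∃ G : Matrix (Fin n) (Fin n) ℝ, G.det ≠ 0 ∧ G * S * Gᵀ = 1 := by
  obtain ⟨B, hB⟩ : ∃ B : Matrix (Fin n) (Fin n) ℝ, S = Bᴴ * B :=
    CStarAlgebra.nonneg_iff_eq_star_mul_self.mp hS.posSemidef.nonneg
  have hBt : Bᴴ = Bᵀ := by ext i j; simp
  rw [hBt] at hB
  have hdet : B.det ≠ 0 := by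
    intro h0
    have := hS.det_pos
    rw [hB, det_mul, h0, mul_zero] at this
    exact lt_irrefl _ this
  have hu : IsUnit B.det := hdet.isUnit
  have huT : IsUnit (Bᵀ).det := by rw [det_transpose]; exact hu
  refine ⟨(Bᵀ)⁻¹, ?_, ?_⟩
  · rw [det_nonsing_inv]
    exact (IsUnit.ne_zero (by
      rw [Ring.inverse_eq_inv']
      exact (inv_ne_zero (by rw [det_transpose]; exact hdet)).isUnit))
  · rw [hB, ← Matrix.mul_assoc, Matrix.nonsing_inv_mul _ huT, Matrix.one_mul,
      transpose_nonsing_inv, transpose_transpose, Matrix.mul_nonsing_inv _ hu]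

/-- **Block E6** -/
theorem E6 : StmtE6 := by
  intro hmain n C c a b hA hDD
  have hgood : Good (limDens 0 c C) (Real.exp b) a :=
    good_limDens Matrix.PosSemidef.zero hA.closed hA.int hA.ha hA.dec
  obtain ⟨G, hG, hGS⟩ := exists_whiten hgood.covF_posDef
  have hu : IsUnit G.det := hG.isUnit
  have huT : IsUnit (Gᵀ).det := by rw [det_transpose]; exact hu
  set f := limDens 0 c C with hf
  set m : Fin n → ℝ := fun i => Ef f (fun x => x i) with hm
  set u : Fin n → ℝ := -(G *ᵥ m) with hudef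
  set c' : Fin n → ℝ := (Gᵀ)⁻¹ *ᵥ c with hc'
  set C' : Set (Fin n → ℝ) := (fun y => G⁻¹ *ᵥ (y - u)) ⁻¹' C with hC'
  set κ : ℝ := Real.exp (c' ⬝ᵥ u) with hκ
  have hκ0 : 0 < κ := Real.exp_pos _
  -- the inverse map
  have hinv : ∀ x, G⁻¹ *ᵥ (G *ᵥ x + u - u) = x := fun x => by
    rw [add_sub_cancel_right, mulVec_mulVec, Matrix.nonsing_inv_mul _ hu, one_mulVec]
  have hinv' : ∀ y, G *ᵥ (G⁻¹ *ᵥ (y - u)) + u = y := fun y => by
    rw [mulVec_mulVec, Matrix.mul_nonsing_inv _ hu, one_mulVec, sub_add_cancel]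
  have hdot : ∀ x, c' ⬝ᵥ (G *ᵥ x + u) = c ⬝ᵥ x + c' ⬝ᵥ u := fun x => by
    rw [dotProduct_add]
    congr 1
    rw [hc', dotProduct_mulVec, ← mulVec_transpose, mulVec_mulVec,
      Matrix.mul_nonsing_inv _ huT, one_mulVec]
  have hmemC : ∀ x, G *ᵥ x + u ∈ C' ↔ x ∈ C := fun x => by
    rw [hC', mem_preimage, hinv]
  have hff : ∀ x, limDens 0 c' C' (G *ᵥ x + u) = κ * f x := by
    intro x
    by_cases hx : x ∈ C
    · have e1 : f x = tilt 0 c x := by rw [hf, limDens, indicator_of_mem hx]
      rw [e1, limDens, indicator_of_mem ((hmemC x).2 hx)]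
      unfold tilt
      rw [hκ, ← Real.exp_add]
      congr 1
      rw [hdot]
      simp only [zero_mulVec, dotProduct_zero, mul_zero, sub_zero]
      ring
    · have e1 : f x = 0 := by rw [hf, limDens, indicator_of_notMem hx]
      rw [e1, limDens, indicator_of_notMem (fun h => hx ((hmemC x).1 h)), mul_zero]
  -- norm bound
  obtain ⟨N, hN0, hN⟩ : ∃ N : ℝ, 0 < N ∧ ∀ x : Fin n → ℝ, ‖G *ᵥ x‖ ≤ N * ‖x‖ := by
    refine ⟨‖LinearMap.toContinuousLinearMap (Matrix.toLin' G)‖ + 1, by positivity, fun x => ?_⟩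
    have h1 := (LinearMap.toContinuousLinearMap (Matrix.toLin' G)).le_opNorm x
    have h2 : (LinearMap.toContinuousLinearMap (Matrix.toLin' G)) x = G *ᵥ x := rfl
    rw [h2] at h1
    have h3 : 0 ≤ ‖x‖ := norm_nonneg _
    linarith
  have hcont : Continuous fun y : Fin n → ℝ => G⁻¹ *ᵥ (y - u) :=
    (LinearMap.continuous_of_finiteDimensional (Matrix.toLin' G⁻¹)).comp
      (continuous_id.sub continuous_const)
  have hAdm : Adm C' c' (a / N) (b + c' ⬝ᵥ u + a / N * ‖u‖) := by
    refine ⟨hA.closed.preimage hcont, ?_, ?_, div_pos hA.ha hN0, ?_⟩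
    · intro y hy z hz s t hs ht hst
      have e1 : G⁻¹ *ᵥ (s • y + t • z - u) = s • (G⁻¹ *ᵥ (y - u)) + t • (G⁻¹ *ᵥ (z - u)) := by
        have : s • y + t • z - u = s • (y - u) + t • (z - u) := by
          have hu' : u = s • u + t • u := by rw [← add_smul, hst, one_smul]
          nth_rewrite 1 [hu']
          rw [smul_sub, smul_sub]
          abel
        rw [this, mulVec_add, mulVec_smul, mulVec_smul]
      rw [hC', mem_preimage, e1]
      exact hA.convex hy hz hs ht hst
    · obtain ⟨x, hx⟩ := hA.int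
      refine ⟨G *ᵥ x + u, ?_⟩
      have h1 : (fun y => G⁻¹ *ᵥ (y - u)) ⁻¹' (interior C) ⊆ interior C' :=
        interior_maximal (preimage_mono interior_subset) (isOpen_interior.preimage hcont)
      apply h1
      rw [mem_preimage, hinv]
      exact hx
    · intro y hy
      have hy' : G⁻¹ *ᵥ (y - u) ∈ C := hy
      have h1 := hA.dec _ hy'
      have h2 := hdot (G⁻¹ *ᵥ (y - u))
      rw [hinv'] at h2
      have h3 : ‖y‖ ≤ N * ‖G⁻¹ *ᵥ (y - u)‖ + ‖u‖ := by
        calc ‖y‖ = ‖G *ᵥ (G⁻¹ *ᵥ (y - u)) + u‖ := by rw [hinv']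
          _ ≤ ‖G *ᵥ (G⁻¹ *ᵥ (y - u))‖ + ‖u‖ := norm_add_le _ _
          _ ≤ _ := by have := hN (G⁻¹ *ᵥ (y - u)); linarith
      have h4 : a / N * ‖y‖ ≤ a * ‖G⁻¹ *ᵥ (y - u)‖ + a / N * ‖u‖ := by
        have h5 : 0 ≤ a / N := (div_pos hA.ha hN0).le
        calc a / N * ‖y‖ ≤ a / N * (N * ‖G⁻¹ *ᵥ (y - u)‖ + ‖u‖) := by gcongr
          _ = _ := by field_simp
      rw [h2]
      linarith
  have hcov : covF (limDens 0 c' C') = 1 := by
    rw [covF_affine hgood hG hκ0.ne' hff, hGS]
  have hNorm : Norm C' c' := by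
    refine ⟨fun i => ?_, hcov, ?_⟩
    · rw [Ef_affine hG hκ0.ne' hff, Ef_coord hgood]
      simp only [hudef, Pi.neg_apply, mulVec, dotProduct, hm]
      ring
    · rw [DD_affine hgood (Real.exp_pos _).le hG hκ0 hff]
      exact hDD
  obtain ⟨A, v, hAdet, hAv⟩ := hmain n C' c' _ _ hAdm hNorm
  refine ⟨A * G, A *ᵥ u + v, ?_, ?_⟩
  · rw [det_mul]
    exact mul_ne_zero hAdet hG
  · ext x
    rw [← hmemC x, hAv, mem_ofPred_eq, mem_ofPred_eq, mulVec_add, mulVec_mulVec, add_assoc]

end Vale.Agent.P254.Eq934
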